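import Vale.Agent.P038.H139.GStep

/-!
# P038 (H221): the gap inequality

`main_ineq`: for an outer minimiser `(B, U)` the row cost of the intersections over closed
in-neighbourhoods grows at least as much as the row cost of the families themselves.
-/

namespace Vale.Agent.P038.H221

open Finset Vale.Agent.P038.H139

variable {V : Type*} [Fintype V]

/-- Layer cake. -/
theorem layer {w : V → ℝ} (hw : ∀ v, 0 ≤ w v) (R : V → V → Prop) [DecidableRel R]
    [DecidableEq V] (Q : Finset V) :
    ∀ (n : ℕ) (G : Finset V) (t g : V → ℝ), G.card = n → (∀ z ∈ G, 0 ≤ t z) →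
      (∀ a ∈ Q, 0 ≤ g a) → (∀ a ∈ Q, ∀ z ∈ G, R z a → t z ≤ g a) →
      (∀ T ⊆ G, W w T ≤ W w (Q.filter fun a => ∃ z ∈ T, R z a)) →
      ∑ z ∈ G, w z * t z ≤ ∑ a ∈ Q, w a * g a := by
  intro n
  induction n with
  | zero =>
    intro G t g hG _ hg _ _
    rw [Finset.card_eq_zero] at hG
    subst hG
    simp only [Finset.sum_empty]
    exact Finset.sum_nonneg fun a ha => mul_nonneg (hw a) (hg a ha)
  | succ n ih =>
    intro G t g hG ht hg hR hH
    have hne : G.Nonempty := by rw [← Finset.card_pos]; omega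
    obtain ⟨z0, hz0, hmin⟩ := Finset.exists_min_image G t hne
    set s := t z0 with hs
    set P := Q.filter fun a => ∃ z ∈ G, R z a with hP
    have h1 := ih (G.erase z0) (fun z => t z - s) (fun a => if a ∈ P then g a - s else g a)
      (by rw [Finset.card_erase_of_mem hz0]; omega)
      (fun z hz => sub_nonneg.2 (hmin z (Finset.mem_of_mem_erase hz)))
      (by
        intro a ha
        split_ifs with hap
        · obtain ⟨_, z, hz, hza⟩ := Finset.mem_filter.1 hap
          have h7 := hR a ha z hz hza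
          have h8 := hmin z hz
          linarith
        · exact hg a ha)
      (by
        intro a ha z hz hza
        have hz' := Finset.mem_of_mem_erase hz
        have hap : a ∈ P := Finset.mem_filter.2 ⟨ha, z, hz', hza⟩
        simp only [if_pos hap]
        have h7 := hR a ha z hz' hza
        linarith)
      (fun T hT => hH T (hT.trans (Finset.erase_subset _ _)))
    have h2 : ∑ z ∈ G.erase z0, w z * (t z - s) = ∑ z ∈ G, w z * t z - s * W w G := by
      have e1 : ∑ z ∈ G.erase z0, w z * (t z - s) = ∑ z ∈ G, w z * (t z - s) := by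
        rw [← Finset.add_sum_erase G _ hz0]
        simp [hs]
      rw [e1]
      simp only [mul_sub, Finset.sum_sub_distrib]
      unfold W
      rw [Finset.mul_sum]
      congr 1
      exact Finset.sum_congr rfl fun _ _ => mul_comm _ _
    have h3 : ∑ a ∈ Q, w a * (if a ∈ P then g a - s else g a) =
        ∑ a ∈ Q, w a * g a - s * W w P := by
      have e2 : ∀ a ∈ Q, w a * (if a ∈ P then g a - s else g a) =
          w a * g a - (if a ∈ P then s * w a else 0) := by
        intro a _
        split_ifs <;> ring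
      rw [Finset.sum_congr rfl e2, Finset.sum_sub_distrib]
      congr 1
      rw [Finset.sum_ite_mem]
      have : Q ∩ P = P := Finset.inter_eq_right.2 (Finset.filter_subset _ _)
      rw [this]
      unfold W
      rw [Finset.mul_sum]
    have h4 := hH G (Finset.Subset.refl _)
    have h5 : 0 ≤ s := ht z0 hz0
    rw [h2, h3] at h1
    have h6 : s * W w G ≤ s * W w P := mul_le_mul_of_nonneg_left h4 h5
    linarith

theorem exists_mm (f : Finset V → ℝ) {X U : Finset V} (h : X ⊆ U) :
    ∃ T, (X ⊆ T ∧ T ⊆ U) ∧ ∀ T', X ⊆ T' → T' ⊆ U → f T ≤ f T' := by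
  classical
  obtain ⟨T, hT, hmin⟩ := Finset.exists_min_image (U.powerset.filter fun T => X ⊆ T) f
    ⟨X, by simp [h]⟩
  rw [Finset.mem_filter, Finset.mem_powerset] at hT
  exact ⟨T, ⟨hT.2, hT.1⟩, fun T' h1 h2 =>
    hmin T' (Finset.mem_filter.2 ⟨Finset.mem_powerset.2 h2, h1⟩)⟩

open Classical in
/-- The minimum of `f` over the interval `[X, U]`. -/
noncomputable def mm (f : Finset V → ℝ) (X U : Finset V) : ℝ :=
  if h : X ⊆ U then f (exists_mm f h).choose else 0

theorem mm_spec {f : Finset V → ℝ} {X U : Finset V} (h : X ⊆ U) :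
    ∃ T, X ⊆ T ∧ T ⊆ U ∧ f T = mm f X U := by
  refine ⟨(exists_mm f h).choose, (exists_mm f h).choose_spec.1.1,
    (exists_mm f h).choose_spec.1.2, ?_⟩
  rw [mm, dif_pos h]

theorem mm_le {f : Finset V → ℝ} {X U T : Finset V} (h1 : X ⊆ T) (h2 : T ⊆ U) :
    mm f X U ≤ f T := by
  rw [mm, dif_pos (h1.trans h2)]
  exact (exists_mm f (h1.trans h2)).choose_spec.2 T h1 h2

theorem mm_mono {f : Finset V → ℝ} {X X' U : Finset V} (h1 : X ⊆ X') (h2 : X' ⊆ U) :
    mm f X U ≤ mm f X' U := by
  obtain ⟨T, h3, h4, h5⟩ := mm_spec (f := f) h2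
  rw [← h5]
  exact mm_le (h1.trans h3) h4

theorem mm_self {f : Finset V → ℝ} {U : Finset V} : mm f U U = f U := by
  obtain ⟨T, h3, h4, h5⟩ := mm_spec (f := f) (Finset.Subset.refl U)
  rw [← h5, Finset.Subset.antisymm h4 h3]

theorem mm_eq {f : Finset V → ℝ} {X U : Finset V} (h : X ⊆ U)
    (hmin : ∀ T, X ⊆ T → T ⊆ U → f X ≤ f T) : mm f X U = f X := by
  obtain ⟨T, h3, h4, h5⟩ := mm_spec (f := f) h
  exact le_antisymm (mm_le (Finset.Subset.refl _) h) (h5 ▸ hmin T h3 h4)

section order

variable [DecidableEq V]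

/-- The first `k` vertices in a fixed enumeration. -/
noncomputable def Fk (V : Type*) [Fintype V] (k : ℕ) : Finset V :=
  Finset.univ.filter fun v => (Fintype.equivFin V v : ℕ) < k

theorem mem_Fk {k : ℕ} {v : V} : v ∈ Fk V k ↔ (Fintype.equivFin V v : ℕ) < k := by
  simp [Fk]

theorem Fk_succ (v : V) : Fk V ((Fintype.equivFin V v : ℕ) + 1) =
    insert v (Fk V (Fintype.equivFin V v : ℕ)) := by
  ext z
  rw [mem_Fk, Finset.mem_insert, mem_Fk, Nat.lt_succ_iff, le_iff_lt_or_eq, or_comm]
  constructor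
  · rintro (h | h)
    · exact Or.inl ((Fintype.equivFin V).injective (Fin.ext h))
    · exact Or.inr h
  · rintro (h | h)
    · exact Or.inl (by rw [h])
    · exact Or.inr h

/-- The value after `k` vertices. -/
noncomputable def ph (f : Finset V → ℝ) (B U : Finset V) (k : ℕ) : ℝ :=
  mm f (B ∪ (Fk V k ∩ U)) U

/-- The increment at `v`. -/
noncomputable def al (f : Finset V → ℝ) (B U : Finset V) (v : V) : ℝ :=
  ph f B U ((Fintype.equivFin V v : ℕ) + 1) - ph f B U (Fintype.equivFin V v : ℕ)

theorem sub1 {B U : Finset V} (h : B ⊆ U) (k : ℕ) : B ∪ (Fk V k ∩ U) ⊆ U :=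
  Finset.union_subset h Finset.inter_subset_right

theorem Fk_mono {k l : ℕ} (h : k ≤ l) : Fk V k ⊆ Fk V l := by
  intro v hv
  rw [mem_Fk] at hv ⊢
  omega

theorem al_nonneg {f : Finset V → ℝ} {B U : Finset V} (h : B ⊆ U) (v : V) : 0 ≤ al f B U v := by
  refine sub_nonneg.2 (mm_mono ?_ (sub1 h _))
  exact Finset.union_subset_union_right
    (Finset.inter_subset_inter_right (Fk_mono (Nat.le_succ _)))

theorem al_zero {f : Finset V → ℝ} {B U : Finset V} {v : V} (hv : ¬ (v ∈ U ∧ v ∉ B)) :
    al f B U v = 0 := by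
  have : B ∪ (Fk V ((Fintype.equivFin V v : ℕ) + 1) ∩ U) =
      B ∪ (Fk V (Fintype.equivFin V v : ℕ) ∩ U) := by
    rw [Fk_succ]
    ext z
    simp only [Finset.mem_union, Finset.mem_inter, Finset.mem_insert]
    constructor
    · rintro (h | ⟨h | h, h'⟩)
      · exact Or.inl h
      · subst h
        left
        by_contra h2
        exact hv ⟨h', h2⟩
      · exact Or.inr ⟨h, h'⟩
    · rintro (h | ⟨h, h'⟩)
      · exact Or.inl h
      · exact Or.inr ⟨Or.inr h, h'⟩
  rw [al, ph, ph, this, sub_self]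

theorem al_sum {f : Finset V → ℝ} {B U : Finset V} (h : B ⊆ U) :
    ∑ v, al f B U v = f U - mm f B U := by
  have h1 : ∑ v, al f B U v =
      ∑ i : Fin (Fintype.card V), (ph f B U ((i : ℕ) + 1) - ph f B U (i : ℕ)) :=
    Equiv.sum_comp (Fintype.equivFin V)
      (fun i : Fin (Fintype.card V) => ph f B U ((i : ℕ) + 1) - ph f B U (i : ℕ))
  have h2 := Fin.sum_univ_eq_sum_range
    (fun i => ph f B U (i + 1) - ph f B U i) (Fintype.card V)
  rw [h1, h2, Finset.sum_range_sub]
  have e1 : ph f B U (Fintype.card V) = f U := by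
    have : B ∪ (Fk V (Fintype.card V) ∩ U) = U := by
      refine Finset.Subset.antisymm (sub1 h _) fun z hz => ?_
      exact Finset.mem_union_right _ (Finset.mem_inter.2 ⟨mem_Fk.2 (Fin.is_lt _), hz⟩)
    rw [ph, this, mm_self]
  have e2 : ph f B U 0 = mm f B U := by
    have : B ∪ (Fk V 0 ∩ U) = B := by
      refine Finset.Subset.antisymm (fun z hz => ?_) Finset.subset_union_left
      rcases Finset.mem_union.1 hz with h3 | h3
      · exact h3
      · exact absurd (mem_Fk.1 (Finset.mem_inter.1 h3).1) (Nat.not_lt_zero _)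
    rw [ph, this]
  rw [e1, e2]

/-- Comparison of the increments. -/
theorem al_le {f : Finset V → ℝ} (hf : ∀ S T, f (S ∪ T) + f (S ∩ T) ≤ f S + f T)
    {B U B' U' : Finset V} (h : B ⊆ U) (h' : B' ⊆ U') (hB : B' ⊆ B) (hU : U' ⊆ U) {v : V}
    (hv : v ∈ U') : al f B U v ≤ al f B' U' v := by
  set k : ℕ := (Fintype.equivFin V v : ℕ) with hk
  set X := B ∪ (Fk V k ∩ U) with hX
  set X' := B' ∪ (Fk V k ∩ U') with hX'
  have e1 : B ∪ (Fk V (k + 1) ∩ U) = insert v X := by
    rw [hk, Fk_succ, hX]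
    ext z
    simp only [Finset.mem_union, Finset.mem_inter, Finset.mem_insert]
    constructor
    · rintro (h | ⟨h | h, h'⟩)
      · exact Or.inr (Or.inl h)
      · exact Or.inl h
      · exact Or.inr (Or.inr ⟨h, h'⟩)
    · rintro (h | h | ⟨h, h'⟩)
      · exact Or.inr ⟨Or.inl h, h ▸ hU hv⟩
      · exact Or.inl h
      · exact Or.inr ⟨Or.inr h, h'⟩
  have e2 : B' ∪ (Fk V (k + 1) ∩ U') = insert v X' := by
    rw [hk, Fk_succ, hX']
    ext z
    simp only [Finset.mem_union, Finset.mem_inter, Finset.mem_insert]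
    constructor
    · rintro (h | ⟨h | h, h'⟩)
      · exact Or.inr (Or.inl h)
      · exact Or.inl h
      · exact Or.inr (Or.inr ⟨h, h'⟩)
    · rintro (h | h | ⟨h, h'⟩)
      · exact Or.inr ⟨Or.inl h, h ▸ hv⟩
      · exact Or.inl h
      · exact Or.inr ⟨Or.inr h, h'⟩
  have hXU : X ⊆ U := sub1 h _
  have hX'U : X' ⊆ U' := sub1 h' _
  have hX'X : X' ⊆ X := Finset.union_subset_union hB (Finset.inter_subset_inter_left hU)
  have hiU : insert v X' ⊆ U' := Finset.insert_subset hv hX'U
  obtain ⟨T, hT1, hT2, hT3⟩ := mm_spec (f := f) hXU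
  obtain ⟨T', hT1', hT2', hT3'⟩ := mm_spec (f := f) hiU
  have g1 : mm f (insert v X) U ≤ f (T ∪ T') := by
    refine mm_le ?_ (Finset.union_subset hT2 (hT2'.trans hU))
    refine Finset.insert_subset ?_ ?_
    · exact Finset.mem_union_right _ (hT1' (Finset.mem_insert_self _ _))
    · exact hT1.trans Finset.subset_union_left
  have g2 : mm f X' U' ≤ f (T ∩ T') := by
    refine mm_le ?_ (Finset.inter_subset_right.trans hT2')
    exact Finset.subset_inter (hX'X.trans hT1) ((Finset.subset_insert _ _).trans hT1')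
  have g3 := hf T T'
  rw [al, al, ph, ph, ph, ph, e1, e2, ← hT3, ← hT3']
  linarith

end order

/-- The gap inequality. -/
theorem main_ineq [DecidableEq V] {w : V → ℝ} (hw : ∀ v, 0 ≤ w v) (R : V → V → Prop)
    [DecidableRel R] {f : Finset V → ℝ} (hf : ∀ S T, f (S ∪ T) + f (S ∩ T) ≤ f S + f T)
    (B U M m : V → Finset V) (hBU : ∀ a, B a ⊆ U a)
    (hM : ∀ a b, b ∈ M a ↔ ∀ z, R z a → b ∈ U z) (hm : ∀ a b, b ∈ m a ↔ ∀ z, R z a → b ∈ B z)
    (hR : ∀ a T, B a ⊆ T → T ⊆ U a → f (B a) ≤ f T)
    (hC : ∀ (b : V) (T : Finset V), (∀ a ∈ T, b ∈ U a ∧ b ∉ B a) →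
      W w T ≤ W w (Finset.univ.filter fun z => b ∈ M z ∧ ∃ a ∈ T, R a z)) :
    ∑ a, w a * (f (U a) - f (B a)) ≤ ∑ a, w a * (f (M a) - f (m a)) := by
  have hmM : ∀ a, m a ⊆ M a := by
    intro a b hb
    rw [hM]
    rw [hm] at hb
    exact fun z hz => hBU z (hb z hz)
  have hmmin : ∀ a T, m a ⊆ T → T ⊆ M a → f (m a) ≤ f T := by
    intro a T h1 h2
    have key : ∀ Z : Finset V, (∀ z ∈ Z, R z a) →
        f (T.filter fun b => ∀ z ∈ Z, b ∈ B z) ≤ f T := by
      intro Z
      induction Z using Finset.induction_on with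
      | empty =>
        intro _
        have : (T.filter fun b => ∀ z ∈ (∅ : Finset V), b ∈ B z) = T := by
          apply Finset.filter_true_of_mem
          intro b _ z hz
          exact absurd hz (Finset.notMem_empty z)
        rw [this]
      | insert z Z hzZ ih =>
        intro hZ
        have h3 := ih (fun z' hz' => hZ z' (Finset.mem_insert_of_mem hz'))
        set I := T.filter fun b => ∀ z ∈ Z, b ∈ B z with hI
        have e : (T.filter fun b => ∀ z' ∈ insert z Z, b ∈ B z') = I ∩ B z := by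
          ext b
          simp only [hI, Finset.mem_filter, Finset.mem_inter, Finset.mem_insert]
          constructor
          · rintro ⟨h4, h5⟩
            exact ⟨⟨h4, fun z' hz' => h5 z' (Or.inr hz')⟩, h5 z (Or.inl rfl)⟩
          · rintro ⟨⟨h4, h5⟩, h6⟩
            refine ⟨h4, ?_⟩
            rintro z' (rfl | hz')
            · exact h6
            · exact h5 z' hz'
        rw [e]
        have h4 := hf I (B z)
        have h5 : f (B z) ≤ f (I ∪ B z) := by
          refine hR z _ Finset.subset_union_right (Finset.union_subset ?_ (hBU z))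
          intro b hb
          have hbT : b ∈ T := (Finset.mem_filter.1 hb).1
          exact (hM a b).1 (h2 hbT) z (hZ z (Finset.mem_insert_self _ _))
        linarith
    have h3 := key (Finset.univ.filter fun z => R z a) (fun z hz => (Finset.mem_filter.1 hz).2)
    have e : (T.filter fun b => ∀ z ∈ (Finset.univ.filter fun z => R z a), b ∈ B z) = m a := by
      ext b
      rw [Finset.mem_filter, hm]
      constructor
      · rintro ⟨_, h5⟩ z hz
        exact h5 z (Finset.mem_filter.2 ⟨Finset.mem_univ _, hz⟩)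
      · intro h5
        refine ⟨h1 ((hm a b).2 h5), fun z hz => h5 z (Finset.mem_filter.1 hz).2⟩
    rwa [e] at h3
  have e1 : ∀ a, f (U a) - f (B a) = ∑ v, al f (B a) (U a) v := fun a => by
    rw [al_sum (hBU a), mm_eq (hBU a) (hR a)]
  have e2 : ∀ a, f (M a) - f (m a) = ∑ v, al f (m a) (M a) v := fun a => by
    rw [al_sum (hmM a), mm_eq (hmM a) (hmmin a)]
  simp only [e1, e2, Finset.mul_sum]
  rw [Finset.sum_comm, Finset.sum_comm (f := fun a v => w a * al f (m a) (M a) v)]
  refine Finset.sum_le_sum fun b _ => ?_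
  have s1 : ∑ a, w a * al f (B a) (U a) b =
      ∑ a ∈ Finset.univ.filter (fun a => b ∈ U a ∧ b ∉ B a), w a * al f (B a) (U a) b := by
    symm
    apply Finset.sum_subset (Finset.filter_subset _ _)
    intro a _ ha
    have : ¬ (b ∈ U a ∧ b ∉ B a) := fun h => ha (Finset.mem_filter.2 ⟨Finset.mem_univ _, h⟩)
    rw [al_zero this, mul_zero]
  rw [s1]
  refine (layer hw R (Finset.univ.filter fun z => b ∈ M z) _ _ _
    (fun a => al f (m a) (M a) b) rfl ?_ ?_ ?_ ?_).trans ?_
  · exact fun a _ => al_nonneg (hBU a) b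
  · exact fun a _ => al_nonneg (hmM a) b
  · intro a ha z _ hza
    have hb : b ∈ M a := (Finset.mem_filter.1 ha).2
    refine al_le hf (hBU z) (hmM a) ?_ ?_ hb
    · intro c hc
      exact (hm a c).1 hc z hza
    · intro c hc
      exact (hM a c).1 hc z hza
  · intro T hT
    have h1 := hC b T (fun a ha => (Finset.mem_filter.1 (hT ha)).2)
    rwa [Finset.filter_filter]
  · exact Finset.sum_le_sum_of_subset_of_nonneg (Finset.filter_subset _ _)
      fun a _ _ => mul_nonneg (hw a) (al_nonneg (hmM a) b)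

end Vale.Agent.P038.H221
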