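import Vale.Agent.P038.H221.Cut
import Vale.Agent.P038.H221.GS

/-!
# P038 (H221): Seymour's second neighbourhood conjecture
-/

namespace Vale.Agent.P038.H221

open Finset Vale.Agent.P038.H139

variable {V : Type*} [Fintype V]

/-- `a ∈ N⁺[z]`. -/
def RR (D : OGraph V) (z a : V) : Prop := z = a ∨ D.arc z a

theorem mem_cl' {D : OGraph V} {S : Finset V} {a : V} : a ∈ cl D S ↔ ∃ z ∈ S, RR D z a := by
  rw [mem_cl]
  constructor
  · rintro (h | ⟨y, hy, h⟩)
    · exact ⟨a, h, Or.inl rfl⟩
    · exact ⟨y, hy, Or.inr h⟩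
  · rintro ⟨z, hz, rfl | h⟩
    · exact Or.inl hz
    · exact Or.inr ⟨z, hz, h⟩

theorem ep_sub [DecidableEq V] {w : V → ℝ} (hw : ∀ v, 0 ≤ w v) (D : OGraph V) (S T : Finset V) :
    ep D w (S ∪ T) + ep D w (S ∩ T) ≤ ep D w S + ep D w T := by
  have h1 : W w (S ∪ T) + W w (S ∩ T) = W w S + W w T := Finset.sum_union_inter
  have h2 : W w (cl D S ∪ cl D T) + W w (cl D S ∩ cl D T) = W w (cl D S) + W w (cl D T) :=
    Finset.sum_union_inter
  have h3 : W w (cl D (S ∩ T)) ≤ W w (cl D S ∩ cl D T) :=
    W_mono hw (Finset.subset_inter (cl_mono Finset.inter_subset_left)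
      (cl_mono Finset.inter_subset_right))
  unfold ep
  rw [cl_union]
  linarith

/-- Inner pairs. -/
structure Inner (D : OGraph V) (X Y : V → Finset V) : Prop where
  x : ∀ a, a ∈ X a
  y : ∀ a, a ∈ Y a
  c : ∀ a b, b ∈ cl D (X a) → a ∈ cl D (Y b) → a = b

/-- Outer pairs. -/
structure Outer (D : OGraph V) (B C : V → Finset V) : Prop where
  x : ∀ a b, RR D a b → b ∈ B a
  y : ∀ a b, RR D a b → b ∈ C a
  c : ∀ a b, b ∈ B a → a ∈ C b → a = b

/-- The cost of a pair. -/
noncomputable def cost (D : OGraph V) (w : V → ℝ) (X Y : V → Finset V) : ℝ :=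
  ∑ a, w a * ep D w (X a) + ∑ a, w a * ep D w (Y a)

theorem Inner.outer {D : OGraph V} {X Y : V → Finset V} (h : Inner D X Y) :
    Outer D (fun a => cl D (X a)) (fun a => cl D (Y a)) where
  x a _ hb := mem_cl'.2 ⟨a, h.x a, hb⟩
  y a _ hb := mem_cl'.2 ⟨a, h.y a, hb⟩
  c := h.c

theorem ex1 [DecidableEq V] (D : OGraph V) (w : V → ℝ) (S : V → Finset V) :
    ∑ a, w a * ep D w (S a) = ∑ a, ∑ b, w a * w b *
      ((if b ∈ cl D (S a) then (1 : ℝ) else 0) - (if b ∈ S a then 1 else 0)) := by
  refine Finset.sum_congr rfl fun a _ => ?_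
  have e : ∀ T : Finset V, W w T = ∑ b, w b * (if b ∈ T then (1 : ℝ) else 0) := by
    intro T
    unfold W
    simp only [mul_ite, mul_one, mul_zero, Finset.sum_ite_mem, Finset.univ_inter]
  rw [ep, e, e, ← Finset.sum_sub_distrib, Finset.mul_sum]
  refine Finset.sum_congr rfl fun b _ => ?_
  ring

theorem ex2 [DecidableEq V] (D : OGraph V) (w : V → ℝ) (S : V → Finset V) :
    ∑ b, w b * ep D w (S b) = ∑ a, ∑ b, w a * w b *
      ((if a ∈ cl D (S b) then (1 : ℝ) else 0) - (if a ∈ S b then 1 else 0)) := by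
  rw [ex1, Finset.sum_comm]
  refine Finset.sum_congr rfl fun a _ => Finset.sum_congr rfl fun b _ => ?_
  ring

/-- From an outer minimiser one gets an inner pair of no larger cost. -/
theorem conv {D : OGraph V} {w : V → ℝ} (hw : ∀ v, 0 < w v) {B C : V → Finset V}
    (h : Outer D B C) (hmin : ∀ B' C', Outer D B' C' → cost D w B C ≤ cost D w B' C') :
    ∃ X Y, Inner D X Y ∧ cost D w X Y ≤ cost D w B C := by
  classical
  have hw' : ∀ v, 0 ≤ w v := fun v => (hw v).le
  set U : V → Finset V := fun a => Finset.univ.filter fun b => b = a ∨ a ∉ C b with hU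
  have mU : ∀ a b, b ∈ U a ↔ (b = a ∨ a ∉ C b) := fun a b => by simp [hU]
  set M : V → Finset V := fun a => Finset.univ.filter fun b => ∀ z, RR D z a → b ∈ U z with hM
  have mM : ∀ a b, b ∈ M a ↔ ∀ z, RR D z a → b ∈ U z := fun a b => by simp [hM]
  set m : V → Finset V := fun a => Finset.univ.filter fun b => ∀ z, RR D z a → b ∈ B z with hm
  have mm' : ∀ a b, b ∈ m a ↔ ∀ z, RR D z a → b ∈ B z := fun a b => by simp [hm]
  set Y : V → Finset V := fun b => Finset.univ.filter fun a => ∀ z, RR D z b → a ∈ C z with hY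
  have mY : ∀ b a, a ∈ Y b ↔ ∀ z, RR D z b → a ∈ C z := fun b a => by simp [hY]
  have hBB : ∀ a, a ∈ B a := fun a => h.x a a (Or.inl rfl)
  have hCC : ∀ a, a ∈ C a := fun a => h.y a a (Or.inl rfl)
  have hBU : ∀ a, B a ⊆ U a := by
    intro a b hb
    rw [mU]
    by_cases hab : b = a
    · exact Or.inl hab
    · exact Or.inr fun hc => hab (h.c a b hb hc).symm
  -- rows
  have hR : ∀ a T, B a ⊆ T → T ⊆ U a → ep D w (B a) ≤ ep D w T := by
    intro a T h1 h2
    have h3 := hmin (Function.update B a T) C (by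
      refine ⟨?_, h.y, ?_⟩
      · intro z b hb
        by_cases hz : z = a
        · subst hz
          rw [Function.update_self]
          exact h1 (h.x z b hb)
        · rw [Function.update_of_ne hz]
          exact h.x z b hb
      · intro z b hb hc
        by_cases hz : z = a
        · subst hz
          rw [Function.update_self] at hb
          rcases (mU z b).1 (h2 hb) with h4 | h4
          · exact h4.symm
          · exact absurd hc h4
        · rw [Function.update_of_ne hz] at hb
          exact h.c z b hb hc)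
    unfold cost at h3
    have e1 : ∀ F : V → Finset V, ∑ z, w z * ep D w (F z) =
        w a * ep D w (F a) + ∑ z ∈ Finset.univ.erase a, w z * ep D w (F z) := fun F =>
      (Finset.add_sum_erase _ _ (Finset.mem_univ a)).symm
    rw [e1 B, e1 (Function.update B a T), Function.update_self] at h3
    have e2 : ∑ z ∈ Finset.univ.erase a, w z * ep D w (Function.update B a T z) =
        ∑ z ∈ Finset.univ.erase a, w z * ep D w (B z) := by
      refine Finset.sum_congr rfl fun z hz => ?_
      rw [Function.update_of_ne (Finset.ne_of_mem_erase hz)]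
    rw [e2] at h3
    have h5 : w a * ep D w (B a) ≤ w a * ep D w T := by linarith
    exact le_of_mul_le_mul_left h5 (hw a)
  -- columns
  have hC : ∀ (b : V) (T : Finset V), (∀ a ∈ T, b ∈ U a ∧ b ∉ B a) →
      W w T ≤ W w (Finset.univ.filter fun z => b ∈ M z ∧ ∃ a ∈ T, RR D a z) := by
    intro b T hT
    have hTC : Disjoint (C b) T := by
      rw [Finset.disjoint_left]
      intro a ha ha'
      obtain ⟨h1, h2⟩ := hT a ha'
      rcases (mU a b).1 h1 with h3 | h3
      · subst h3
        exact h2 (hBB b)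
      · exact h3 ha
    have h3 := hmin B (Function.update C b (C b ∪ T)) (by
      refine ⟨h.x, ?_, ?_⟩
      · intro z a ha
        by_cases hz : z = b
        · subst hz
          rw [Function.update_self]
          exact Finset.mem_union_left _ (h.y z a ha)
        · rw [Function.update_of_ne hz]
          exact h.y z a ha
      · intro a z hb hc
        by_cases hz : z = b
        · subst hz
          rw [Function.update_self] at hc
          rcases Finset.mem_union.1 hc with h4 | h4
          · exact h.c a z hb h4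
          · exact absurd hb (hT a h4).2
        · rw [Function.update_of_ne hz] at hc
          exact h.c a z hb hc)
    unfold cost at h3
    have e1 : ∀ F : V → Finset V, ∑ z, w z * ep D w (F z) =
        w b * ep D w (F b) + ∑ z ∈ Finset.univ.erase b, w z * ep D w (F z) := fun F =>
      (Finset.add_sum_erase _ _ (Finset.mem_univ b)).symm
    rw [e1 C, e1 (Function.update C b (C b ∪ T)), Function.update_self] at h3
    have e2 : ∑ z ∈ Finset.univ.erase b, w z * ep D w (Function.update C b (C b ∪ T) z) =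
        ∑ z ∈ Finset.univ.erase b, w z * ep D w (C z) := by
      refine Finset.sum_congr rfl fun z hz => ?_
      rw [Function.update_of_ne (Finset.ne_of_mem_erase hz)]
    rw [e2] at h3
    have h5 : w b * ep D w (C b) ≤ w b * ep D w (C b ∪ T) := by linarith
    have h6 := le_of_mul_le_mul_left h5 (hw b)
    unfold ep at h6
    rw [W_union hTC, cl_union, ← Finset.union_sdiff_self_eq_union,
      W_union Finset.disjoint_sdiff] at h6
    have h7 : W w (cl D T \ cl D (C b)) ≤
        W w (Finset.univ.filter fun z => b ∈ M z ∧ ∃ a ∈ T, RR D a z) := by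
      refine W_mono hw' fun z hz => ?_
      obtain ⟨h8, h9⟩ := Finset.mem_sdiff.1 hz
      refine Finset.mem_filter.2 ⟨Finset.mem_univ _, (mM z b).2 fun z' hz' => ?_, mem_cl'.1 h8⟩
      rw [mU]
      exact Or.inr fun h10 => h9 (mem_cl'.2 ⟨z', h10, hz'⟩)
    linarith
  have main := main_ineq hw' (RR D) (ep_sub hw' D) B U M m hBU mM mm' hR hC
  -- the inner pair
  have hin : Inner D m Y := by
    refine ⟨fun a => (mm' a a).2 fun z hz => h.x z a hz,
      fun a => (mY a a).2 fun z hz => h.y z a hz, ?_⟩
    intro a b hb ha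
    obtain ⟨x, hx, hxb⟩ := mem_cl'.1 hb
    obtain ⟨y, hy, hya⟩ := mem_cl'.1 ha
    have h1 : x ∈ B y := (mm' a x).1 hx y hya
    have h2 : y ∈ C x := (mY b y).1 hy x hxb
    have h3 := h.c y x h1 h2
    subst h3
    have h4 : y ∈ B a := (mm' a y).1 hx a (Or.inl rfl)
    have h5 : a ∈ C y := h.y y a hya
    have h6 := h.c a y h4 h5
    subst h6
    have h7 : a ∈ C b := (mY b a).1 hy b (Or.inl rfl)
    exact h.c a b (h.x a b hxb) h7
  refine ⟨m, Y, hin, ?_⟩
  -- the pointwise inequality
  have hMM : ∀ a, a ∈ M a := by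
    intro a
    rw [mM]
    intro z hz
    rw [mU]
    by_cases hza : a = z
    · exact Or.inl hza
    · exact Or.inr fun hc => hza (h.c z a (h.x z a hz) hc).symm
  have hYY : ∀ a, a ∈ Y a := hin.y
  have hUU : ∀ a, a ∈ U a := fun a => (mU a a).2 (Or.inl rfl)
  have pw : ∀ a b, (((if b ∈ cl D (M a) then (1 : ℝ) else 0) - (if b ∈ M a then 1 else 0)) +
      ((if a ∈ cl D (Y b) then (1 : ℝ) else 0) - (if a ∈ Y b then 1 else 0))) ≤
      (((if b ∈ cl D (U a) then (1 : ℝ) else 0) - (if b ∈ U a then 1 else 0)) +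
      ((if a ∈ cl D (C b) then (1 : ℝ) else 0) - (if a ∈ C b then 1 else 0))) := by
    intro a b
    by_cases hab : a = b
    · subst hab
      rw [if_pos (subset_cl D _ (hMM a)), if_pos (hMM a), if_pos (subset_cl D _ (hYY a)),
        if_pos (hYY a), if_pos (subset_cl D _ (hUU a)), if_pos (hUU a),
        if_pos (subset_cl D _ (hCC a)), if_pos (hCC a)]
    · have f1 : b ∈ U a ↔ a ∉ C b := by
        rw [mU]
        constructor
        · rintro (h1 | h1)
          · exact absurd h1.symm hab
          · exact h1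
        · exact Or.inr
      have f2 : b ∈ M a ↔ a ∉ cl D (C b) := by
        constructor
        · intro h1 h2
          obtain ⟨z, hz, hza⟩ := mem_cl'.1 h2
          have h3 := (mM a b).1 h1 z hza
          rcases (mU z b).1 h3 with h4 | h4
          · subst h4
            have h5 := (mM a b).1 h1 a (Or.inl rfl)
            exact (f1.1 h5) (h.y b a hza)
          · exact h4 hz
        · intro h1
          rw [mM]
          intro z hz
          rw [mU]
          exact Or.inr fun h2 => h1 (mem_cl'.2 ⟨z, h2, hz⟩)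
      have f3 : a ∈ Y b ↔ b ∉ cl D (U a) := by
        constructor
        · intro h1 h2
          obtain ⟨z, hz, hzb⟩ := mem_cl'.1 h2
          rcases (mU a z).1 hz with h3 | h3
          · subst h3
            have h4 := (mY b z).1 h1 b (Or.inl rfl)
            exact hab (h.c z b (h.x z b hzb) h4)
          · exact h3 ((mY b a).1 h1 z hzb)
        · intro h1
          rw [mY]
          intro z hz
          by_contra h2
          exact h1 (mem_cl'.2 ⟨z, (mU a z).2 (Or.inr h2), hz⟩)
      have f4 : ¬ (b ∈ cl D (M a) ∧ a ∈ cl D (Y b)) := by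
        rintro ⟨h1, h2⟩
        obtain ⟨y, hy, hyb⟩ := mem_cl'.1 h1
        obtain ⟨z, hz, hza⟩ := mem_cl'.1 h2
        have h3 := (mM a y).1 hy z hza
        have h4 := (mY b z).1 hz y hyb
        have hyz : y = z := by
          rcases (mU z y).1 h3 with h5 | h5
          · exact h5
          · exact absurd h4 h5
        subst hyz
        have h5 := (mM a y).1 hy a (Or.inl rfl)
        have hya : y = a := by
          rcases (mU a y).1 h5 with h6 | h6
          · exact h6
          · exact absurd (h.y y a hza) h6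
        subst hya
        have h6 := (mY b y).1 hz b (Or.inl rfl)
        exact hab (h.c y b (h.x y b hyb) h6)
      have g : ∀ {p q : Prop} [Decidable p] [Decidable q], (p ↔ ¬ q) →
          (if p then (1 : ℝ) else 0) = 1 - (if q then 1 else 0) := by
        intro p q _ _ hpq
        by_cases c : q
        · rw [if_neg (fun h => hpq.1 h c), if_pos c]
          norm_num
        · rw [if_pos (hpq.2 c), if_neg c]
          norm_num
      have g1 := g f1
      have g2 := g f2
      have g3 := g f3
      have g4 : (if b ∈ cl D (M a) then (1 : ℝ) else 0) +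
          (if a ∈ cl D (Y b) then (1 : ℝ) else 0) ≤ 1 := by
        split_ifs with c4 c5 c5
        · exact absurd ⟨c4, c5⟩ f4
        all_goals norm_num
      linarith
  have hE : ∑ a, w a * ep D w (M a) + ∑ a, w a * ep D w (Y a) ≤
      ∑ a, w a * ep D w (U a) + ∑ a, w a * ep D w (C a) := by
    rw [ex1 D w M, ex2 D w Y, ex1 D w U, ex2 D w C, ← Finset.sum_add_distrib,
      ← Finset.sum_add_distrib]
    refine Finset.sum_le_sum fun a _ => ?_
    rw [← Finset.sum_add_distrib, ← Finset.sum_add_distrib]
    refine Finset.sum_le_sum fun b _ => ?_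
    rw [← mul_add, ← mul_add]
    exact mul_le_mul_of_nonneg_left (pw a b) (mul_nonneg (hw' a) (hw' b))
  simp only [mul_sub, Finset.sum_sub_distrib] at main
  unfold cost
  linarith

/-- The number of arcs. -/
noncomputable def na (D : OGraph V) : ℕ := by
  classical
  exact ((Finset.univ : Finset (V × V)).filter fun p => D.arc p.1 p.2).card

theorem na_lt {D D' : OGraph V} (h : ∀ a b, D'.arc a b → D.arc a b) {a b : V} (h1 : D.arc a b)
    (h2 : ¬ D'.arc a b) : na D' < na D := by
  classical
  unfold na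
  apply Finset.card_lt_card
  refine Finset.ssubset_iff_subset_ne.2 ⟨?_, ?_⟩
  · intro p hp
    rw [Finset.mem_filter] at hp ⊢
    exact ⟨hp.1, h _ _ hp.2⟩
  · intro he
    have : (a, b) ∈ (Finset.univ : Finset (V × V)).filter fun p => D'.arc p.1 p.2 := by
      rw [he]
      exact Finset.mem_filter.2 ⟨Finset.mem_univ _, h1⟩
    exact h2 (Finset.mem_filter.1 this).2

/-- **Seymour's second neighbourhood conjecture**, with positive vertex weights. -/
theorem snc_weighted [Nonempty V] (D : OGraph V) (w : V → ℝ) (hw : ∀ v, 0 < w v) :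
    ∃ v, W w (N1 D v) ≤ W w (N2 D v) := by
  classical
  by_contra hcon
  push Not at hcon
  have hw' : ∀ v, 0 ≤ w v := fun v => (hw v).le
  -- an arc-minimal counterexample
  obtain ⟨D, hF, hmin⟩ : ∃ D : OGraph V, (∀ v, 0 < Fw 1 D w v) ∧
      ∀ D' : OGraph V, (∀ v, 0 < Fw 1 D' w v) → na D ≤ na D' := by
    have hex : ∃ n, ∃ D : OGraph V, (∀ v, 0 < Fw 1 D w v) ∧ na D = n :=
      ⟨_, D, fun v => by
        have := hcon v
        unfold Fw
        linarith, rfl⟩
    obtain ⟨D, hD, hn⟩ := Nat.find_spec hex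
    exact ⟨D, hD, fun D' h' => hn ▸ Nat.find_min' hex ⟨D', h', rfl⟩⟩
  have hG : ∀ X, cl D X ≠ X → ep D w (cl D X) < ep D w X := by
    intro X hX
    refine strictG' hw' hF (fun D' h1 h2 a b hab => ?_) X hX
    by_contra h3
    have h4 := na_lt h2 hab h3
    have h5 := hmin D' h1
    omega
  have hG' : ∀ X, ep D w (cl D X) ≤ ep D w X := by
    intro X
    by_cases hX : cl D X = X
    · rw [hX]
    · exact (hG X hX).le
  have hout : ∀ v, ∃ u, D.arc v u := by
    intro v
    by_contra hv
    push Not at hv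
    have h1 : N1 D v = ∅ := by
      rw [Finset.eq_empty_iff_forall_notMem]
      intro z hz
      exact hv z (mem_N1.1 hz)
    have h2 := hF v
    unfold Fw at h2
    rw [h1] at h2
    have h3 := W_nonneg hw' (N2 D v)
    have h4 : W w (∅ : Finset V) = 0 := by simp [W]
    rw [h4] at h2
    linarith
  -- minimal outer pair
  have houter : Outer D (fun a => cl D {a}) (fun a => cl D {a}) := by
    refine ⟨fun a b hb => mem_cl'.2 ⟨a, Finset.mem_singleton_self a, hb⟩,
      fun a b hb => mem_cl'.2 ⟨a, Finset.mem_singleton_self a, hb⟩, ?_⟩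
    intro a b h1 h2
    obtain ⟨z, hz, h3⟩ := mem_cl'.1 h1
    obtain ⟨z', hz', h4⟩ := mem_cl'.1 h2
    rw [Finset.mem_singleton] at hz hz'
    subst hz hz'
    rcases h3 with h3 | h3
    · exact h3
    · rcases h4 with h4 | h4
      · exact h4.symm
      · exact absurd h4 (D.asymm _ _ h3)
  obtain ⟨⟨B, C⟩, hBC, hBCmin⟩ := Set.exists_min_image
    {p : (V → Finset V) × (V → Finset V) | Outer D p.1 p.2} (fun p => cost D w p.1 p.2)
    (Set.toFinite _) ⟨(fun a => cl D {a}, fun a => cl D {a}), houter⟩
  obtain ⟨X0, Y0, hXY0, hcost0⟩ := conv hw hBC (fun B' C' h' => hBCmin (B', C') h')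
  -- minimal inner pair
  obtain ⟨⟨X, Y⟩, hXY, hXYmin⟩ := Set.exists_min_image
    {p : (V → Finset V) × (V → Finset V) | Inner D p.1 p.2} (fun p => cost D w p.1 p.2)
    (Set.toFinite _) ⟨(X0, Y0), hXY0⟩
  have h1 : cost D w X Y ≤ cost D w X0 Y0 := hXYmin (X0, Y0) hXY0
  have hXY' : Inner D X Y := hXY
  have h2 : cost D w B C ≤ cost D w (fun a => cl D (X a)) (fun a => cl D (Y a)) :=
    hBCmin (_, _) hXY'.outer
  -- some row is not closed
  have hne : ∃ b, cl D (Y b) ≠ Y b := by
    by_contra hcl
    push Not at hcl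
    obtain ⟨K, ⟨hKne, hKcl⟩, hKmin⟩ := Set.exists_min_image
      {K : Finset V | K.Nonempty ∧ cl D K = K} Finset.card (Set.toFinite _)
      ⟨Finset.univ, Finset.univ_nonempty,
        Finset.Subset.antisymm (Finset.subset_univ _) (subset_cl D _)⟩
    have hKY : ∀ b ∈ K, K ⊆ Y b := by
      intro b hb
      have hcl2 : cl D (K ∩ Y b) = K ∩ Y b := by
        refine Finset.Subset.antisymm ?_ (subset_cl D _)
        refine Finset.subset_inter ?_ ?_
        · exact (cl_mono Finset.inter_subset_left).trans hKcl.le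
        · exact (cl_mono Finset.inter_subset_right).trans (hcl b).le
      have h3 := hKmin (K ∩ Y b) ⟨⟨b, Finset.mem_inter.2 ⟨hb, hXY'.y b⟩⟩, hcl2⟩
      have h4 : K ∩ Y b = K := Finset.eq_of_subset_of_card_le Finset.inter_subset_left h3
      rw [← h4]
      exact Finset.inter_subset_right
    obtain ⟨b, hb⟩ := hKne
    obtain ⟨b', hb'⟩ := hout b
    have hb'K : b' ∈ K := by
      rw [← hKcl]
      exact mem_cl'.2 ⟨b, hb, Or.inr hb'⟩
    have h3 : b ∈ cl D (Y b') := subset_cl D _ (hKY b' hb'K hb)
    have h4 : b' ∈ cl D (X b) := mem_cl'.2 ⟨b, hXY'.x b, Or.inr hb'⟩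
    have h5 := hXY'.c b b' h4 h3
    subst h5
    exact D.loopless _ hb'
  obtain ⟨b, hb⟩ := hne
  have h3 : cost D w (fun a => cl D (X a)) (fun a => cl D (Y a)) < cost D w X Y := by
    unfold cost
    refine add_lt_add_of_le_of_lt ?_ ?_
    · exact Finset.sum_le_sum fun a _ => mul_le_mul_of_nonneg_left (hG' _) (hw' a)
    · refine Finset.sum_lt_sum (fun a _ => mul_le_mul_of_nonneg_left (hG' _) (hw' a))
        ⟨b, Finset.mem_univ _, mul_lt_mul_of_pos_left (hG _ hb) (hw b)⟩
  linarith

/-- **Seymour's second neighbourhood conjecture.** -/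
theorem snc [Nonempty V] (D : OGraph V) : ∃ v, (N1 D v).card ≤ (N2 D v).card := by
  obtain ⟨v, hv⟩ := snc_weighted D (fun _ => 1) (fun _ => one_pos)
  refine ⟨v, ?_⟩
  unfold W at hv
  simp only [Finset.sum_const, nsmul_eq_mul, mul_one] at hv
  exact_mod_cast hv

end Vale.Agent.P038.H221
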